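import Vale.Agent.P223A.Defs

/-!
# P223V: one move of the painting in the frame; the statement (helper70)
-/

open Set
open Vale.Agent.P366M Vale.Agent.P223Y Vale.Agent.P223F Vale.Agent.P223A

noncomputable section

namespace Vale.Agent.P223V

/-- the share of the colour class `A` in the labelled family `a` -/
def shr (Γ : Type) {Ω X : Type} [Group Γ] [MulAction Γ Ω] [MulAction Γ X] (A : Set Ω)
    (a : Ω → X → ℝ) (o : Ω) (x : X) : ℝ :=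
  ∑ᶠ γ : Γ, lb γ (fun o x => A.indicator (fun o => a o x) o) o x

/-- **MV**: the prices `ξ`, and the move for the colour class `A` and the threshold `t` -/
def MV (n : ℕ) : Prop := ∀ s > (0 : ℝ), ∃ C ≥ (1 : ℝ), ∀ r ≥ (1 : ℝ), ∀ t₀ > (0 : ℝ), ∀ β > (0 : ℝ),
  β * (r + 6) ≤ 1 / 2 → ∃ ε₀ > (0 : ℝ), ∀ ε > (0 : ℝ), ε ≤ ε₀ → ∀ (X Γ : Type) [Mf0 n X] [Group Γ]
    [MulAction Γ X] (g₀ : Fld n X) (χ : X → ℝ), Geo Γ g₀ χ → ∀ (F : Fr Γ) (K D : Set X) (δ : ℝ)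
    (g : F.Ω → Fld n X) (v : F.Ω → Fin n → X → ℝ) (Q a : F.Ω → X → ℝ), IsCompact K → IsCompact D →
    K ⊆ interior D → 0 ≤ δ → δ ≤ 1 / 2 → Gs F g₀ g v Q → Amp F K g a ε →
    ∃ ξ : F.Ω → X → ℝ, Li F (fun _ => vol g₀) ξ ∧ Cs ξ K ∧ (∀ o x, 0 ≤ ξ o x ∧ ξ o x ≤ 1) ∧
      (∀ o x, ∑ᶠ γ : Γ, lb γ ξ o x ≤ 2) ∧ ∀ A : Set F.Ω, IsClopen A → Sep Γ A D → ∀ t ≥ t₀,
      ∃ (g' : F.Ω → Fld n X) (v' : F.Ω → Fin n → X → ℝ) (Q' T : F.Ω → X → ℝ), Gs F g₀ g' v' Q' ∧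
        Amp F K g' a ε ∧ Rs F T ∧ (∀ o u x, gn (g' o) u x ≤ gn (g o) u x) ∧ ∀ o x θ,
        θ = (shr Γ A a o x / t - 1) / β → gn (g' o) (T o) x ≤ ε / β ∧
          |T o x - max (-r) (min r θ)| ≤ 1 / 10 ∧ (r + 3 ≤ θ → T o x = r) ∧
          (θ ≤ -(r + 3) → T o x = -r) ∧ md s δ g₀ (g' o) (v' o) (Q' o) x ≤
            md s δ g₀ (g o) (v o) (Q o) x *
              if |θ| ≤ r + 6 then C * (1 + shr Γ A ξ o x / t) else 1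

end Vale.Agent.P223V
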